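import Mathlib
import Vale.Agent.Lib.P101.Defs2
import Vale.Agent.Lib.P101.Bridge

/-!
# P101: an ultrafilter-free criterion for the hypothesis of the Kirchberg-Rørdam question

For a nonzero unital separable C*-algebra `A` and a free ultrafilter `ω` on `ℕ`, the central
sequence algebra `F_ω(A)` has no characters if and only if `A` satisfies a local condition which
does not mention `ω`: there are `m` and `R` such that for every finite `F ⊆ A` and `ε > 0` the unit
of `A` is within `ε` of a sum of `m` terms `x [a, b] y` with `x, y, a, b` of norm at most `R`
commuting up to `ε` with `F`.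
-/

namespace Vale.Agent.Results.P101.LocalCriterion

open Vale.Agent.Lib.P101

theorem result (A : Type*) [CStarAlgebra A] [Nontrivial A] [TopologicalSpace.SeparableSpace A]
    (ω : Ultrafilter ℕ) (hω : (ω : Filter ℕ) ≤ Filter.cofinite) :
    ¬ FHasCharacter A ω ↔ LocalCommutatorCondition A :=
  no_fcharacter_iff_local ω hω

end Vale.Agent.Results.P101.LocalCriterion
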