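import Mathlib
import Vale.Agent.Lib.P101.Defs2
import Vale.Agent.Lib.P101.Bridge

/-!
# P101: the hypothesis of the Kirchberg-Rørdam question does not depend on the ultrafilter

For a nonzero unital separable C*-algebra `A` and two free ultrafilters on `ℕ`, the central
sequence algebra `F_ω(A)` has a character for one of them if and only if it has one for the other
(no continuum hypothesis is used).
-/

namespace Vale.Agent.Results.P101.UltrafilterIndep

open Vale.Agent.Lib.P101

theorem result (A : Type*) [CStarAlgebra A] [Nontrivial A] [TopologicalSpace.SeparableSpace A]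
    (ω₁ ω₂ : Ultrafilter ℕ) (h₁ : (ω₁ : Filter ℕ) ≤ Filter.cofinite)
    (h₂ : (ω₂ : Filter ℕ) ≤ Filter.cofinite) :
    FHasCharacter A ω₁ ↔ FHasCharacter A ω₂ := by
  rw [← not_iff_not, no_fcharacter_iff_local ω₁ h₁, no_fcharacter_iff_local ω₂ h₂]

end Vale.Agent.Results.P101.UltrafilterIndep
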